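/-
R335/BR/Cfg: the configuration space `Config3` and the product space `Z` (helper64).
-/
import Crest.Agent.R335.T.Cov

set_option autoImplicit false
set_option linter.unusedSectionVars false
set_option linter.unusedVariables false
set_option linter.unusedSimpArgs false

noncomputable section

namespace Crest.Agent.R335

open MeasureTheory Set Filter Topology Metric Crest.MathPhysics.ThreeBody
open scoped ENNReal

/-- The coordinate directions of the configuration space. -/
def eC (ic : Fin 3 × Fin 3) : Config3 := EuclideanSpace.single ic 1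

/-- From configurations to triples of positions. -/
def toZ (x : Config3) : Z := (elPos 0 x, (elPos 1 x, elPos 2 x))

/-- From triples of positions to configurations. -/
def ofZ (p : Z) : Config3 := WithLp.toLp 2 fun ic => (![p.1, p.2.1, p.2.2] ic.1) ic.2

theorem elPos_ofZ0 (p : Z) : elPos 0 (ofZ p) = p.1 := rfl
theorem elPos_ofZ1 (p : Z) : elPos 1 (ofZ p) = p.2.1 := rfl
theorem elPos_ofZ2 (p : Z) : elPos 2 (ofZ p) = p.2.2 := rfl

theorem toZ_ofZ (p : Z) : toZ (ofZ p) = p := rfl

theorem ofZ_toZ (x : Config3) : ofZ (toZ x) = x := by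
  ext ⟨i, c⟩
  fin_cases i <;> rfl

theorem elPos_perm (σ : Equiv.Perm (Fin 3)) (i : Fin 3) (x : Config3) :
    elPos i (permConfig σ x) = elPos (σ i) x := rfl

/-- `toZ` as a linear equivalence. -/
def toZL : Config3 ≃ₗ[ℝ] Z where
  toFun := toZ
  invFun := ofZ
  left_inv := ofZ_toZ
  right_inv := toZ_ofZ
  map_add' := fun x y => rfl
  map_smul' := fun c x => rfl

/-- The matching of the directions. -/
def idx : Fin 3 × Fin 3 ≃ Fin 3 ⊕ (Fin 3 ⊕ Fin 3) where
  toFun ic := ![Sum.inl ic.2, Sum.inr (Sum.inl ic.2), Sum.inr (Sum.inr ic.2)] ic.1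
  invFun := Sum.elim (fun c => (0, c)) (Sum.elim (fun c => (1, c)) fun c => (2, c))
  left_inv := by decide
  right_inv := by decide

theorem toZ_eC (ic : Fin 3 × Fin 3) : toZ (eC ic) = eZ (idx ic) := by
  obtain ⟨i, c⟩ := ic
  fin_cases i <;>
  · refine Prod.ext ?_ (Prod.ext ?_ ?_) <;>
    · ext d
      simp [toZ, eC, eZ, eY, eX, pb, idx, elPos, Pi.single_apply, eq_comm]

theorem mp_toZ : MeasurePreserving toZ volume volume := by
  let bX := (EuclideanSpace.basisFun (Fin 3) ℝ).toBasis
  let bC := (EuclideanSpace.basisFun (Fin 3 × Fin 3) ℝ).toBasis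
  have hX : bX.addHaar = volume := (EuclideanSpace.basisFun (Fin 3) ℝ).addHaar_eq_volume
  have hC : bC.addHaar = volume := (EuclideanSpace.basisFun (Fin 3 × Fin 3) ℝ).addHaar_eq_volume
  have hZ : (bX.prod (bX.prod bX)).addHaar = (volume : Measure Z) := by
    rw [Module.Basis.prod_addHaar, Module.Basis.prod_addHaar, hX]
    rfl
  have hb : bC.map toZL = (bX.prod (bX.prod bX)).reindex idx.symm := by
    refine Module.Basis.eq_of_apply_eq fun ic => ?_
    rw [Module.Basis.map_apply, Module.Basis.reindex_apply, Equiv.symm_symm]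
    have h1 : bC ic = eC ic := by simp [bC, eC]
    rw [h1]
    change toZ (eC ic) = _
    rw [toZ_eC]
    rcases idx ic with c | c | c <;> simp [bX, eZ, eY, eX, pb, Module.Basis.prod_apply]
  have hm := Module.Basis.map_addHaar bC toZL.toContinuousLinearEquiv
  refine ⟨toZL.toContinuousLinearEquiv.continuous.measurable, ?_⟩
  rw [← hC, ← hZ, ← Module.Basis.addHaar_reindex _ idx.symm, ← hb]
  exact hm

theorem sym_toZ : Sym eC eZ toZ :=
  ⟨⟨toZL.toContinuousLinearEquiv, idx, fun _ => 1, fun _ => rfl, mp_toZ, fun _ => Or.inl rfl,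
    fun i => by rw [one_smul]; exact toZ_eC i⟩⟩

theorem sym_ofZ : Sym eZ eC ofZ := by
  have hm : MeasurePreserving (toZL.toContinuousLinearEquiv.toHomeomorph.toMeasurableEquiv)
      volume volume := mp_toZ
  refine ⟨⟨toZL.toContinuousLinearEquiv.symm, idx.symm, fun _ => 1, fun _ => rfl, hm.symm,
    fun _ => Or.inl rfl, fun i => ?_⟩⟩
  rw [one_smul, ContinuousLinearEquiv.symm_apply_eq]
  change _ = toZ _
  rw [toZ_eC, Equiv.apply_symm_apply]

theorem measurable_toZ : Measurable toZ := mp_toZ.measurable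
theorem measurable_ofZ : Measurable ofZ := sym_ofZ.mp.measurable

theorem lintegral_toZ (f : Z → ℝ≥0∞) : ∫⁻ x, f (toZ x) = ∫⁻ p, f p :=
  mp_toZ.lintegral_comp_emb toZL.toContinuousLinearEquiv.toHomeomorph.measurableEmbedding f

theorem Sym.lintegral {E : Type} [NormedAddCommGroup E] [NormedSpace ℝ E] [FiniteDimensional ℝ E]
    [MeasureSpace E] [BorelSpace E] [(volume : Measure E).IsAddHaarMeasure]
    {ι : Type} [Fintype ι] {b : ι → E}
    {E' : Type} [NormedAddCommGroup E'] [NormedSpace ℝ E'] [FiniteDimensional ℝ E']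
    [MeasureSpace E'] [BorelSpace E'] [(volume : Measure E').IsAddHaarMeasure]
    {ι' : Type} [Fintype ι'] {b' : ι' → E'} {T : E' → E} (hT : Sym b' b T) (f : E → ℝ≥0∞) :
    ∫⁻ x, f (T x) = ∫⁻ x, f x := by
  obtain ⟨L, σ, s, h1, h2, -⟩ := hT.ex
  simp only [← h1]
  exact h2.lintegral_comp_emb L.toHomeomorph.measurableEmbedding f

theorem finrank_X : Module.finrank ℝ X = 3 := by simp
theorem finrank_Y : Module.finrank ℝ Y = 6 := by simp
theorem finrank_Z : Module.finrank ℝ Z = 9 := by simp

end Crest.Agent.R335
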