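/-
R335/BR/Kin: the Fourier form of the kinetic energy and the Dirichlet form (helper64).
-/
import Crest.Agent.R335.BR.Cfg
import Crest.Agent.R335.T.Lsc
import Crest.Agent.R335.T.Approx
import Crest.Agent.R338.DenseB

set_option autoImplicit false
set_option linter.unusedSectionVars false
set_option linter.unusedVariables false
set_option linter.unusedSimpArgs false

noncomputable section

namespace Crest.Agent.R335

open MeasureTheory Set Filter Topology Metric Crest.MathPhysics.ThreeBody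
open scoped ENNReal FourierTransform

theorem kin_eq338 (f : Config3 → ℂ) :
    kineticOne f = Crest.MathPhysics.ElectronicCoulomb.kineticOne (n := 3) f := rfl

theorem tst_dir {φ : Config3 → ℝ} (h : Tst φ) : dir eC φ φ = ∫ x, R338.gsq φ x := by
  rw [h.dir_eq h]
  refine integral_congr_ae (.of_forall fun x => ?_)
  simp only [R338.gsq, R338.pd, eC, sq]

/-- The kinetic energy is lower semicontinuous in `L²`. -/
theorem kin_lsc {f : ℕ → Config3 → ℂ} {g : Config3 → ℂ} (hf : ∀ n, MemLp (f n) 2 volume)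
    (hg : MemLp g 2 volume)
    (h : Tendsto (fun n => (hf n).toLp (f n)) atTop (𝓝 (hg.toLp g))) {a : ℝ≥0∞}
    (ha : Tendsto (fun n => kineticOne (f n)) atTop (𝓝 a)) : kineticOne g ≤ a := by
  have h1 : Tendsto (fun n => (𝓕 ((hf n).toLp (f n)) : Lp ℂ 2 (volume : Measure Config3))) atTop
      (𝓝 (𝓕 (hg.toLp g))) :=
    ((Lp.fourierTransformₗᵢ Config3 ℂ).continuous.tendsto _).comp h
  obtain ⟨ns, hns, h2⟩ := (tendstoInMeasure_of_tendsto_Lp h1).exists_seq_tendsto_ae
  set w : Config3 → ℝ≥0∞ := fun ξ => ENNReal.ofReal ((2 * Real.pi * ‖ξ‖) ^ 2) with hw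
  have hwm : Measurable w := by fun_prop
  have h3 : ∫⁻ ξ, w ξ * ‖(𝓕 (hg.toLp g) : Lp ℂ 2 (volume : Measure Config3)) ξ‖ₑ ^ 2 ≤
      liminf (fun n => ∫⁻ ξ, w ξ *
        ‖(𝓕 ((hf (ns n)).toLp (f (ns n))) : Lp ℂ 2 (volume : Measure Config3)) ξ‖ₑ ^ 2) atTop := by
    refine le_trans (lintegral_mono_ae ?_) (lintegral_liminf_le' fun n => ?_)
    · filter_upwards [h2] with ξ hξ
      refine (Tendsto.liminf_eq ?_).ge
      refine ENNReal.Tendsto.const_mul ?_ (Or.inr ENNReal.ofReal_ne_top)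
      exact ((ENNReal.continuous_pow 2).tendsto _).comp (continuous_enorm.tendsto _ |>.comp hξ)
    · exact hwm.aemeasurable.mul ((Lp.aestronglyMeasurable _).enorm.pow_const 2)
  have h4 : Tendsto (fun n => 2 * kineticOne (f (ns n))) atTop (𝓝 (2 * a)) :=
    ENNReal.Tendsto.const_mul (ha.comp hns.tendsto_atTop) (Or.inr ENNReal.ofNat_ne_top)
  have h5 : ∀ n, 2 * kineticOne (f (ns n)) = ∫⁻ ξ, w ξ *
      ‖(𝓕 ((hf (ns n)).toLp (f (ns n))) : Lp ℂ 2 (volume : Measure Config3)) ξ‖ₑ ^ 2 := fun n => by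
    rw [kineticOne, dif_pos (hf _), ← mul_assoc, one_div, ENNReal.mul_inv_cancel (by simp) (by simp),
      one_mul]
  simp only [h5] at h4
  rw [h4.liminf_eq] at h3
  rw [kineticOne, dif_pos hg]
  calc _ ≤ 1 / 2 * (2 * a) := mul_le_mul_right h3 _
    _ = a := by
      rw [← mul_assoc, one_div, ENNReal.inv_mul_cancel (by simp) (by simp), one_mul]

/-- Upper bound of the Fourier form by the Dirichlet form. -/
theorem kin_le {g : Config3 → ℝ} (h : H1 eC g) :
    kineticOne (fun x => (g x : ℂ)) ≤ ENNReal.ofReal (dir eC g g / 2) := by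
  obtain ⟨φ, h1, h2, h3, -⟩ := h.approx
  have hm : ∀ {u : Config3 → ℝ}, MemLp u 2 volume → MemLp (fun x => (u x : ℂ)) 2 volume :=
    fun hu => hu.ofReal
  refine kin_lsc (f := fun n x => (φ n x : ℂ)) (fun n => hm (h1 n).memLp) (hm h.1) ?_ ?_
  · rw [tendsto_iff_norm_sub_tendsto_zero]
    have h4 : ∀ n, ‖(hm (h1 n).memLp).toLp _ - (hm h.1).toLp _‖ =
        √(∫ x, (φ n x - g x) ^ 2) := fun n => by
      rw [← Real.sqrt_sq (norm_nonneg _), R338.dense_norm (N := 3)]
      congr 1
      refine integral_congr_ae ?_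
      filter_upwards [Lp.coeFn_sub ((hm (h1 n).memLp).toLp _) ((hm h.1).toLp _),
        (hm (h1 n).memLp).coeFn_toLp, (hm h.1).coeFn_toLp] with x e1 e2 e3
      rw [e1, Pi.sub_apply, e2, e3, ← Complex.ofReal_sub, Complex.norm_real, Real.norm_eq_abs,
        sq_abs]
    simp only [h4]
    simpa [Function.comp_def] using (Real.continuous_sqrt.tendsto _).comp h2
  · have h4 : ∀ n, kineticOne (fun x => (φ n x : ℂ)) =
        ENNReal.ofReal ((∑ i, ip (fun x => fderiv ℝ (φ n) x (eC i))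
          fun x => fderiv ℝ (φ n) x (eC i)) / 2) := fun n => by
      rw [kin_eq338, R338.kineticOne_test (N := 3) ⟨(h1 n).1, (h1 n).2⟩, ← tst_dir (h1 n),
        (h1 n).dir_eq (h1 n), integral_finsetSum
          (f := fun i x => fderiv ℝ (φ n) x (eC i) * fderiv ℝ (φ n) x (eC i)) _ fun i _ =>
          ((h1 n).memLp_d _).integrable_mul ((h1 n).memLp_d _)]
      congr 1
      simp only [ip]
      ring
    simp only [h4]
    rw [h.dir_eq_sum h]
    refine ENNReal.tendsto_ofReal (Tendsto.div_const (tendsto_finsetSum _ fun i _ => ?_) _)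
    exact tendsto_ip (fun n => (h1 n).memLp_d _) (fun n => (h1 n).memLp_d _) (h.2 i).2 (h.2 i).2
      (h3 i) (h3 i)

/-- Finite kinetic energy gives `H¹` and the lower bound. -/
theorem kin_ge {f : Config3 → ℂ} (h2 : MemLp f 2 volume) (hk : kineticOne f < ⊤) :
    H1 eC (fun x => (f x).re) ∧ H1 eC (fun x => (f x).im) ∧
      dir eC (fun x => (f x).re) (fun x => (f x).re) + dir eC (fun x => (f x).im)
        (fun x => (f x).im) ≤ 2 * (kineticOne f).toReal := by
  have hpos : ∀ n : ℕ, (0 : ℝ) < 1 / (n + 1) := fun n => Nat.one_div_pos_of_nat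
  choose u hu1 hu2 hu3 hu4 using fun n : ℕ => R338.exists_test_one (N := 3) h2 hk (hpos n)
  have ht : ∀ (L : ℂ →L[ℝ] ℝ) n, Tst fun x => L (u n x) := fun L n =>
    have := R338.denseB_test_clm (N := 3) L ⟨hu1 n, hu2 n⟩
    ⟨this.diff, this.supp⟩
  have hum : ∀ n, MemLp (u n) 2 volume := fun n =>
    (hu1 n).continuous.memLp_of_hasCompactSupport (hu2 n)
  have hl : ∀ L : ℂ →L[ℝ] ℝ, (∀ z, L z ^ 2 ≤ ‖z‖ ^ 2) →
      L2to (fun n x => L (u n x)) fun x => L (f x) := fun L hL => by
    refine squeeze_zero (fun n => integral_nonneg fun x => sq_nonneg _) (fun n => ?_)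
      tendsto_one_div_add_atTop_nhds_zero_nat
    refine le_trans (integral_mono_of_nonneg (.of_forall fun x => sq_nonneg _)
      ((h2.sub (hum n)).integrable_norm_pow two_ne_zero) (.of_forall fun x => ?_)) (hu3 n)
    have := hL (f x - u n x)
    rw [map_sub] at this
    dsimp only [Pi.sub_apply]
    nlinarith
  refine H1.lsc2 (F := fun n x => Complex.reCLM (u n x)) (G := fun n x => Complex.imCLM (u n x))
    (fun n => (ht _ n).h1) (fun n => (ht _ n).h1) h2.re h2.im
    (hl _ fun z => by rw [R338.denseB_normSq]; simp [sq_nonneg])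
    (hl _ fun z => by rw [R338.denseB_normSq]; simp [sq_nonneg]) fun ε hε => ?_
  filter_upwards [(tendsto_one_div_add_atTop_nhds_zero_nat (𝕜 := ℝ)).eventually
    (ge_mem_nhds (half_pos hε))] with n hn
  have i1 : ∀ L : ℂ →L[ℝ] ℝ, Integrable (R338.gsq fun x => L (u n x)) := fun L => by
    simpa using (R338.denseB_test_clm (N := 3) L ⟨hu1 n, hu2 n⟩).integrable_gsq
      (g := fun _ => 1) continuous_const
  rw [tst_dir (ht _ n), tst_dir (ht _ n), ← integral_add (i1 _) (i1 _)]
  have e : ∫ x, R338.cgsq (N := 3) (u n) x = ∫ x, (R338.gsq (fun x => Complex.reCLM (u n x)) x +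
      R338.gsq (fun x => Complex.imCLM (u n x)) x) :=
    integral_congr_ae (.of_forall (R338.denseB_cgsq_eq (hu1 n)))
  rw [← e]
  have := hu4 n
  rw [kin_eq338]
  linarith

end Crest.Agent.R335
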