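/-
R335/BR/Part: the real components of a wave function (helper64).
-/
import Crest.Agent.R335.BR.Kin
import Crest.Agent.R335.T.Pot

set_option autoImplicit false
set_option linter.unusedSectionVars false
set_option linter.unusedVariables false
set_option linter.unusedSimpArgs false

noncomputable section

namespace Crest.Agent.R335

open MeasureTheory Set Filter Topology Metric Crest.MathPhysics.ThreeBody
open scoped ENNReal

/-- A symmetric potential whose form is defined on `H¹`. -/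
structure GoodW (W : Z → ℝ) : Prop where
  s12 : ∀ x y z : X, W (y, (x, z)) = W (x, (y, z))
  s23 : ∀ x y z : X, W (x, (z, y)) = W (x, (y, z))
  int : ∀ B, H1 eZ B → Integrable fun p => W p * B p * B p

/-- The number of electrons in `S`. -/
def cnt (S : Set X) (p : Z) : ℝ≥0∞ :=
  S.indicator (fun _ => 1) p.1 + S.indicator (fun _ => 1) p.2.1 + S.indicator (fun _ => 1) p.2.2

/-- The expected number of electrons in `S`. -/
def dn (F : Z → ℝ) (S : Set X) : ℝ≥0∞ := ∫⁻ p, cnt S p * ENNReal.ofReal (F p ^ 2)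

/-- Real and imaginary parts of the spin components. -/
def part (Φ : Wave3) (j : (Fin 3 → Fin 2) × Bool) (p : Z) : ℝ :=
  if j.2 then (Φ j.1 (ofZ p)).re else (Φ j.1 (ofZ p)).im

theorem part_true (Φ : Wave3) (s : Spin3) : part Φ (s, true) = fun p => (Φ s (ofZ p)).re := rfl
theorem part_false (Φ : Wave3) (s : Spin3) : part Φ (s, false) = fun p => (Φ s (ofZ p)).im := rfl

theorem sum_part {M : Type} [AddCommMonoid M] (Q : (Z → ℝ) → M) (Φ : Wave3) :
    ∑ j, Q (part Φ j) =
      ∑ s, (Q (fun p => (Φ s (ofZ p)).re) + Q fun p => (Φ s (ofZ p)).im) := by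
  rw [Fintype.sum_prod_type]
  simp only [Fintype.sum_bool, part_true, part_false]

theorem measurable_cnt {S : Set X} (hS : MeasurableSet S) : Measurable (cnt S) := by
  have h : Measurable (S.indicator fun _ => (1 : ℝ≥0∞)) := measurable_const.indicator hS
  exact ((h.comp measurable_fst).add (h.comp (measurable_fst.comp measurable_snd))).add
    (h.comp (measurable_snd.comp measurable_snd))

variable {Φ : Wave3} {W : Z → ℝ}

theorem memLp_re {f : Config3 → ℂ} (h : MemLp f 2 volume) :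
    MemLp (fun p => (f (ofZ p)).re) 2 volume := h.re.comp_measurePreserving sym_ofZ.mp

theorem memLp_im {f : Config3 → ℂ} (h : MemLp f 2 volume) :
    MemLp (fun p => (f (ofZ p)).im) 2 volume := h.im.comp_measurePreserving sym_ofZ.mp

theorem part_memLp (h : ∀ s, MemLp (Φ s) 2 volume) (j : (Fin 3 → Fin 2) × Bool) :
    MemLp (part Φ j) 2 volume := by
  obtain ⟨s, _ | _⟩ := j
  · exact memLp_im (h s)
  · exact memLp_re (h s)

theorem kin_lt (hk : kinetic Φ < ⊤) (s : Spin3) : kineticOne (Φ s) < ⊤ :=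
  lt_of_le_of_lt (Finset.single_le_sum (f := fun s => kineticOne (Φ s)) (fun _ _ => zero_le)
    (Finset.mem_univ s)) hk

theorem part_h1 (h : ∀ s, MemLp (Φ s) 2 volume) (hk : kinetic Φ < ⊤)
    (j : (Fin 3 → Fin 2) × Bool) : H1 eZ (part Φ j) := by
  obtain ⟨s, _ | _⟩ := j
  · exact sym_ofZ.h1 (kin_ge (h s) (kin_lt hk s)).2.1
  · exact sym_ofZ.h1 (kin_ge (h s) (kin_lt hk s)).1

theorem part_dir (h : ∀ s, MemLp (Φ s) 2 volume) (hk : kinetic Φ < ⊤) :
    ∑ j, dir eZ (part Φ j) (part Φ j) ≤ 2 * (kinetic Φ).toReal := by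
  rw [sum_part (fun F => dir eZ F F), kinetic, ENNReal.toReal_sum fun s _ => (kin_lt hk s).ne,
    Finset.mul_sum]
  refine Finset.sum_le_sum fun s _ => ?_
  obtain ⟨h1, h2, h3⟩ := kin_ge (h s) (kin_lt hk s)
  rw [← sym_ofZ.dir h1.hl h1.hl, ← sym_ofZ.dir h2.hl h2.hl] at h3
  exact h3

theorem perm_ofZ01 (x y z : X) :
    permConfig (Equiv.swap 0 1) (ofZ (x, (y, z))) = ofZ (y, (x, z)) := by
  ext ⟨i, c⟩
  fin_cases i <;> rfl

theorem perm_ofZ02 (x y z : X) :
    permConfig (Equiv.swap 0 2) (ofZ (x, (y, z))) = ofZ (z, (y, x)) := by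
  ext ⟨i, c⟩
  fin_cases i <;> rfl

theorem perm_ofZ12 (x y z : X) :
    permConfig (Equiv.swap 1 2) (ofZ (x, (y, z))) = ofZ (x, (z, y)) := by
  ext ⟨i, c⟩
  fin_cases i <;> rfl

theorem ferm_swap (h : IsFermionic Φ) {s : Spin3} {a b : Fin 3} (hab : a ≠ b) (hs : s a = s b)
    (x : Config3) : Φ s (permConfig (Equiv.swap a b) x) = -Φ s x := by
  have h1 := h.2 (Equiv.swap a b) s x
  have h2 : (fun i => s (Equiv.swap a b i)) = s := funext fun i => Equiv.apply_swap_eq_self hs i
  rw [h2, Equiv.Perm.sign_swap hab] at h1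
  simpa using h1

theorem part_anti (h : IsFermionic Φ) (j : (Fin 3 → Fin 2) × Bool) :
    Anti12 (part Φ j) ∨ Anti13 (part Φ j) ∨ Anti23 (part Φ j) := by
  obtain ⟨s, b⟩ := j
  have h0 : s 0 = s 1 ∨ s 0 = s 2 ∨ s 1 = s 2 := by
    generalize s 0 = a, s 1 = b, s 2 = c
    revert a b c
    decide
  rcases h0 with h0 | h0 | h0
  · refine Or.inl fun x y z => ?_
    simp only [part, ← perm_ofZ01 x y z, ferm_swap h (by decide) h0]
    split_ifs <;> simp
  · refine Or.inr (Or.inl fun x y z => ?_)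
    simp only [part, ← perm_ofZ02 x y z, ferm_swap h (by decide) h0]
    split_ifs <;> simp
  · refine Or.inr (Or.inr fun x y z => ?_)
    simp only [part, ← perm_ofZ12 x y z, ferm_swap h (by decide) h0]
    split_ifs <;> simp

theorem enorm_sq_parts (z : ℂ) :
    ‖z‖ₑ ^ 2 = ENNReal.ofReal (z.re ^ 2) + ENNReal.ofReal (z.im ^ 2) := by
  rw [R338.Fourier_enorm_sq, R338.denseB_normSq, ENNReal.ofReal_add (sq_nonneg _) (sq_nonneg _)]

theorem part_weight (h : ∀ s, MemLp (Φ s) 2 volume) {w : Z → ℝ≥0∞} (hw : Measurable w) :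
    ∑ s, ∫⁻ x, w (toZ x) * ‖Φ s x‖ₑ ^ 2 =
      ∑ j, ∫⁻ p, w p * ENNReal.ofReal (part Φ j p ^ 2) := by
  rw [sum_part (fun F => ∫⁻ p, w p * ENNReal.ofReal (F p ^ 2))]
  refine Finset.sum_congr rfl fun s _ => ?_
  rw [← sym_ofZ.lintegral, ← lintegral_add_left']
  · simp only [toZ_ofZ, enorm_sq_parts, mul_add]
  · exact hw.aemeasurable.mul
      (((memLp_re (h s)).1.aemeasurable.pow_const 2).ennreal_ofReal)

theorem part_density (h : ∀ s, MemLp (Φ s) 2 volume) {S : Set X} (hS : MeasurableSet S) :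
    densityOn Φ S = ∑ j, dn (part Φ j) S := by
  unfold dn
  rw [← part_weight h (measurable_cnt hS), densityOn]
  simp only [Fin.sum_univ_three]
  rfl

theorem lint_sq {F : Z → ℝ} (h : MemLp F 2 volume) :
    ∫⁻ p, ENNReal.ofReal (F p ^ 2) = ENNReal.ofReal (ip F F) := by
  rw [← ofReal_integral_eq_lintegral_ofReal h.integrable_sq (.of_forall fun _ => sq_nonneg _)]
  simp only [ip, sq]

theorem part_norm (h : ∀ s, MemLp (Φ s) 2 volume) :
    normSq Φ = ENNReal.ofReal (∑ j, ip (part Φ j) (part Φ j)) := by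
  have h1 := part_weight h (w := fun _ => 1) measurable_const
  simp only [one_mul, lint_sq (part_memLp h _)] at h1
  rw [normSq, h1, ENNReal.ofReal_sum_of_nonneg fun j _ => lsc_ip_nonneg _]

theorem part_norm_one (h : ∀ s, MemLp (Φ s) 2 volume) (hn : normSq Φ = 1) :
    ∑ j, ip (part Φ j) (part Φ j) = 1 := by
  rw [part_norm h] at hn
  exact ENNReal.ofReal_eq_one.1 hn

theorem part_pot (hW : GoodW W) (h : ∀ j, H1 eZ (part Φ j)) :
    (∀ s, Integrable fun x => W (toZ x) * ‖Φ s x‖ ^ 2) ∧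
    potentialEnergy (fun x => W (toZ x)) Φ = ∑ j, ∫ p, W p * part Φ j p * part Φ j p := by
  have e : ∀ s, (fun p => W (toZ (ofZ p)) * ‖Φ s (ofZ p)‖ ^ 2) = fun p =>
      W p * part Φ (s, true) p * part Φ (s, true) p +
        W p * part Φ (s, false) p * part Φ (s, false) p := fun s => funext fun p => by
    rw [toZ_ofZ, R338.denseB_normSq, part_true, part_false]
    ring
  refine ⟨fun s => ?_, ?_⟩
  · rw [← sym_ofZ.integrable, e]
    exact (hW.int _ (h _)).add (hW.int _ (h _))
  · rw [sum_part (fun F => ∫ p, W p * F p * F p), potentialEnergy]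
    refine Finset.sum_congr rfl fun s _ => ?_
    rw [← sym_ofZ.integral, e, integral_add (hW.int _ (h _)) (hW.int _ (h _))]
    rfl

theorem part_energy (hW : GoodW W) (h : ∀ s, MemLp (Φ s) 2 volume) (hk : kinetic Φ < ⊤) :
    ∑ j, qf eZ W (part Φ j) (part Φ j) ≤ energy (fun x => W (toZ x)) Φ := by
  have h1 := part_dir h hk
  rw [energy, (part_pot hW (part_h1 h hk)).2]
  simp only [qf, Finset.sum_add_distrib, ← Finset.sum_div]
  linarith

/-! ### The variational inequality for all components -/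

theorem qf_smul {F : Z → ℝ} (h : H1 eZ F) (c : ℝ) :
    qf eZ W (fun p => c * F p) (fun p => c * F p) = c ^ 2 * qf eZ W F F := by
  rw [qf_const_mul_left h, qf_comm, qf_const_mul_left h]
  ring

theorem ip_smul (F : Z → ℝ) (c : ℝ) :
    ip (fun p => c * F p) (fun p => c * F p) = c ^ 2 * ip F F := by
  unfold ip
  rw [← integral_const_mul]
  exact integral_congr_ae (.of_forall fun p => by ring)

theorem min12 {E : ℝ} (hmin : ∀ B, H1 eZ B → Anti12 B → ip B B = 1 → E ≤ qf eZ W B B)
    {F : Z → ℝ} (h : H1 eZ F) (ha : Anti12 F) : E * ip F F ≤ qf eZ W F F := by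
  rcases (lsc_ip_nonneg F).eq_or_lt with h0 | h0
  · have h1 : F =ᵐ[volume] fun p => 0 * F p := by
      have := (integral_eq_zero_iff_of_nonneg (fun p => mul_self_nonneg (F p))
        (h.1.integrable_mul h.1)).1 h0.symm
      filter_upwards [this] with p hp
      simpa using hp
    rw [qf_congr h1 h1, qf_smul h, ← h0]
    simp
  · have h1 := hmin (fun p => (√(ip F F))⁻¹ * F p) (h.const_mul _)
      (fun x y z => by simp only [ha x y z]; ring)
      (by rw [ip_smul, inv_pow, Real.sq_sqrt h0.le, inv_mul_cancel₀ h0.ne'])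
    rw [qf_smul h, inv_pow, Real.sq_sqrt h0.le, le_inv_mul_iff₀ h0] at h1
    linarith

theorem GoodW.s13 (hW : GoodW W) (x y z : X) : W (z, (y, x)) = W (x, (y, z)) := by
  rw [hW.s12, hW.s23, hW.s12]

theorem min_all (hW : GoodW W) {E : ℝ}
    (hmin : ∀ B, H1 eZ B → Anti12 B → ip B B = 1 → E ≤ qf eZ W B B)
    {F : Z → ℝ} (h : H1 eZ F) (ha : Anti12 F ∨ Anti13 F ∨ Anti23 F) :
    E * ip F F ≤ qf eZ W F F := by
  rcases ha with ha | ha | ha
  · exact min12 hmin h ha
  · have h1 := min12 hmin (sym_23.h1 h) fun x y z => ha x z y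
    have h2 := sym_23.qf W h.hl h.hl
    simp only [hW.s23] at h2
    rw [sym_23.ip] at h1
    exact h1.trans_eq h2
  · have h1 := min12 hmin (sym_13.h1 h) fun x y z => ha z y x
    have h2 := sym_13.qf W h.hl h.hl
    simp only [hW.s13] at h2
    rw [sym_13.ip] at h1
    exact h1.trans_eq h2

/-- The lower bound for all admissible states. -/
theorem energy_ge (hW : GoodW W) {E : ℝ}
    (hmin : ∀ B, H1 eZ B → Anti12 B → ip B B = 1 → E ≤ qf eZ W B B)
    (hf : IsFermionic Φ) (hk : kinetic Φ < ⊤) (hn : normSq Φ = 1) :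
    E ≤ energy (fun x => W (toZ x)) Φ := by
  refine le_trans ?_ (part_energy hW hf.1 hk)
  refine le_trans ?_ (Finset.sum_le_sum fun j _ =>
    min_all hW hmin (part_h1 hf.1 hk j) (part_anti hf j))
  rw [← Finset.mul_sum, part_norm_one hf.1 hn, mul_one]

end Crest.Agent.R335
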