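/-
R335/BR/Wave: the spin wave function of a function antisymmetric in electrons 1, 2 (helper64).
-/
import Crest.Agent.R335.BR.Part

set_option autoImplicit false
set_option linter.unusedSectionVars false
set_option linter.unusedVariables false
set_option linter.unusedSimpArgs false

noncomputable section

namespace Crest.Agent.R335

open MeasureTheory Set Filter Topology Metric Crest.MathPhysics.ThreeBody
open scoped ENNReal

/-- The spin components: the last argument of `A` is the electron of spin `1`. -/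
def cmp (A : Z → ℝ) (a b c : Fin 2) : Z → ℝ :=
  if a = 0 ∧ b = 0 ∧ c = 1 then A else if a = 1 ∧ b = 0 ∧ c = 0 then F3 A
  else if a = 0 ∧ b = 1 ∧ c = 0 then F3 (F3 A) else fun _ => 0

/-- `A / √3`. -/
def thr (A : Z → ℝ) (p : Z) : ℝ := (√3)⁻¹ * A p

/-- The wave function. -/
def wave (A : Z → ℝ) : Wave3 := fun s x => (cmp (thr A) (s 0) (s 1) (s 2) (toZ x) : ℂ)

variable {A B : Z → ℝ} {W : Z → ℝ}

theorem sum_spin {M : Type} [AddCommMonoid M] (f : Fin 2 → Fin 2 → Fin 2 → M) :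
    ∑ s : Spin3, f (s 0) (s 1) (s 2) = ∑ a, ∑ b, ∑ c, f a b c := by
  let e : Spin3 ≃ Fin 2 × Fin 2 × Fin 2 :=
    { toFun := fun s => (s 0, s 1, s 2)
      invFun := fun t => ![t.1, t.2.1, t.2.2]
      left_inv := fun s => by
        funext i
        fin_cases i <;> rfl
      right_inv := fun t => rfl }
  rw [Fintype.sum_equiv e (fun s => f (s 0) (s 1) (s 2)) (fun t => f t.1 t.2.1 t.2.2) fun s => rfl]
  simp only [Fintype.sum_prod_type]

theorem sum_cmp {M : Type} [AddCommMonoid M] (Q : (Z → ℝ) → M) (h0 : Q (fun _ => 0) = 0)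
    (A : Z → ℝ) : ∑ s : Spin3, Q (cmp A (s 0) (s 1) (s 2)) = Q A + Q (F3 A) + Q (F3 (F3 A)) := by
  rw [sum_spin fun a b c => Q (cmp A a b c)]
  simp [Fin.sum_univ_two, cmp, h0, add_comm, add_left_comm, add_assoc]

theorem cmp_ind {P : (Z → ℝ) → Prop} (h0 : P fun _ => 0) (h1 : P A) (h2 : P (F3 A))
    (h3 : P (F3 (F3 A))) (a b c : Fin 2) : P (cmp A a b c) := by
  unfold cmp
  split_ifs <;> assumption

theorem cmp_swap12 (h : Anti12 A) (a b c : Fin 2) (x y z : X) :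
    cmp A b a c (y, (x, z)) = -cmp A a b c (x, (y, z)) := by
  fin_cases a <;> fin_cases b <;> fin_cases c <;> simp [cmp, F3] <;> rw [h]

theorem cmp_swap23 (h : Anti12 A) (a b c : Fin 2) (x y z : X) :
    cmp A a c b (x, (z, y)) = -cmp A a b c (x, (y, z)) := by
  fin_cases a <;> fin_cases b <;> fin_cases c <;> simp [cmp, F3] <;> rw [h]

theorem perm_three (σ : Equiv.Perm (Fin 3)) :
    (σ 0 = 0 ∧ σ 1 = 1 ∧ σ 2 = 2 ∧ Equiv.Perm.sign σ = 1) ∨
    (σ 0 = 1 ∧ σ 1 = 0 ∧ σ 2 = 2 ∧ Equiv.Perm.sign σ = -1) ∨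
    (σ 0 = 0 ∧ σ 1 = 2 ∧ σ 2 = 1 ∧ Equiv.Perm.sign σ = -1) ∨
    (σ 0 = 2 ∧ σ 1 = 1 ∧ σ 2 = 0 ∧ Equiv.Perm.sign σ = -1) ∨
    (σ 0 = 1 ∧ σ 1 = 2 ∧ σ 2 = 0 ∧ Equiv.Perm.sign σ = 1) ∨
    (σ 0 = 2 ∧ σ 1 = 0 ∧ σ 2 = 1 ∧ Equiv.Perm.sign σ = 1) := by
  revert σ
  decide

theorem anti_thr (h : Anti12 A) : Anti12 (thr A) := fun x y z => by
  simp only [thr, h x y z]
  ring

theorem h1_F3 (h : H1 eZ A) : H1 eZ (F3 A) := sym_cyc.h1 h

theorem h1_zero : H1 eZ fun _ => (0 : ℝ) := Tst.h1 ⟨contDiff_const, HasCompactSupport.zero⟩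

theorem h1_cmp (h : H1 eZ A) (a b c : Fin 2) : H1 eZ (cmp A a b c) :=
  cmp_ind h1_zero h (h1_F3 h) (h1_F3 (h1_F3 h)) a b c

theorem h1_thr (h : H1 eZ A) : H1 eZ (thr A) := h.const_mul _

theorem wave_ferm (h : H1 eZ A) (ha : Anti12 A) : IsFermionic (wave A) := by
  refine ⟨fun s => ((h1_cmp (h1_thr h) _ _ _).1.comp_measurePreserving mp_toZ).ofReal,
    fun σ s x => ?_⟩
  have h12 := cmp_swap12 (anti_thr ha)
  have h23 := cmp_swap23 (anti_thr ha)
  simp only [wave, toZ, elPos_perm]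
  rcases perm_three σ with ⟨a, b, c, d⟩ | ⟨a, b, c, d⟩ | ⟨a, b, c, d⟩ | ⟨a, b, c, d⟩ |
    ⟨a, b, c, d⟩ | ⟨a, b, c, d⟩ <;> rw [a, b, c, d]
  · simp
  · rw [h12]; simp
  · rw [h23]; simp
  · rw [h12, h23, h12]; simp
  · rw [h23, h12]; simp
  · rw [h12, h23]; simp

theorem part_wave (A : Z → ℝ) (s : Spin3) :
    part (wave A) (s, true) = cmp (thr A) (s 0) (s 1) (s 2) ∧
      part (wave A) (s, false) = fun _ => 0 :=
  ⟨funext fun p => by simp [part, wave, toZ_ofZ], funext fun p => by simp [part, wave]⟩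

theorem sum_wave {M : Type} [AddCommMonoid M] (Q : (Z → ℝ) → M) (h0 : Q (fun _ => 0) = 0)
    (A : Z → ℝ) : ∑ j, Q (part (wave A) j) =
      Q (thr A) + Q (F3 (thr A)) + Q (F3 (F3 (thr A))) := by
  rw [Fintype.sum_prod_type, ← sum_cmp Q h0]
  refine Finset.sum_congr rfl fun s _ => ?_
  rw [Fintype.sum_bool, (part_wave A s).1, (part_wave A s).2, h0, add_zero]

theorem part_wave_h1 (h : H1 eZ A) (j : (Fin 3 → Fin 2) × Bool) : H1 eZ (part (wave A) j) := by
  obtain ⟨s, _ | _⟩ := j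
  · rw [(part_wave A s).2]
    exact h1_zero
  · rw [(part_wave A s).1]
    exact h1_cmp (h1_thr h) _ _ _

theorem inv_sqrt_three : ((√3)⁻¹ : ℝ) ^ 2 = 1 / 3 := by
  rw [inv_pow, Real.sq_sqrt (by norm_num)]
  norm_num

theorem ip_F3 (A : Z → ℝ) : ip (F3 A) (F3 A) = ip A A := sym_cyc.ip A A

theorem dir_F3 (h : H1 eZ A) : dir eZ (F3 A) (F3 A) = dir eZ A A := sym_cyc.dir h.hl h.hl

theorem GoodW.cyc (hW : GoodW W) (p : Z) : W (p.2.1, (p.2.2, p.1)) = W p := by
  rw [hW.s23, hW.s12]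

theorem pot_F3 (hW : GoodW W) (A : Z → ℝ) :
    ∫ p, W p * F3 A p * F3 A p = ∫ p, W p * A p * A p := by
  rw [← sym_cyc.integral fun p => W p * A p * A p]
  simp only [hW.cyc, F3]

theorem cnt_cyc (S : Set X) (p : Z) : cnt S (p.2.1, (p.2.2, p.1)) = cnt S p := by
  simp only [cnt]
  ring

theorem dn_F3 (A : Z → ℝ) (S : Set X) : dn (F3 A) S = dn A S := by
  rw [dn, dn, ← sym_cyc.lintegral fun p => cnt S p * ENNReal.ofReal (A p ^ 2)]
  simp only [cnt_cyc, F3]

theorem wave_norm (h : H1 eZ A) (ha : Anti12 A) (hn : ip A A = 1) : normSq (wave A) = 1 := by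
  rw [part_norm (wave_ferm h ha).1, sum_wave (fun F => ip F F) (by simp [ip]), ip_F3 (F3 _),
    ip_F3]
  have : ip (thr A) (thr A) = 1 / 3 := by
    rw [← inv_sqrt_three, ← mul_one (_ ^ 2), ← hn]
    exact ip_smul A _
  rw [this]
  norm_num

theorem dir_thr (h : H1 eZ A) : dir eZ (thr A) (thr A) = dir eZ A A / 3 := by
  have h1 : dir eZ (thr A) (thr A) = (√3)⁻¹ * ((√3)⁻¹ * dir eZ A A) := by
    unfold thr
    rw [h.hl.dir_const_mul_left, dir_comm, h.hl.dir_const_mul_left]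
  rw [h1, ← mul_assoc, ← sq, inv_sqrt_three]
  ring

theorem dir_zero : dir eZ (fun _ => (0 : ℝ)) (fun _ => 0) = 0 := by
  have := h1_zero.hl.dir_const_mul_left 0 fun _ => 0
  simpa using this

theorem wave_kin (h : H1 eZ A) : kinetic (wave A) ≤ ENNReal.ofReal (dir eZ A A / 2) := by
  have h1 : ∀ s : Spin3, kineticOne (wave A s) ≤ ENNReal.ofReal
      (dir eZ (cmp (thr A) (s 0) (s 1) (s 2)) (cmp (thr A) (s 0) (s 1) (s 2)) / 2) := fun s => by
    have h2 := h1_cmp (h1_thr h) (s 0) (s 1) (s 2)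
    rw [← sym_toZ.dir h2.hl h2.hl]
    exact kin_le (sym_toZ.h1 h2)
  refine (Finset.sum_le_sum fun s _ => h1 s).trans ?_
  rw [← ENNReal.ofReal_sum_of_nonneg fun s _ => div_nonneg (dir_self_nonneg _) two_pos.le,
    sum_cmp (fun F => dir eZ F F / 2) (by rw [dir_zero, zero_div]), dir_F3 (h1_F3 (h1_thr h)),
    dir_F3 (h1_thr h), dir_thr h]
  refine le_of_eq ?_
  congr 1
  ring

theorem wave_pot (hW : GoodW W) (h : H1 eZ A) :
    potentialEnergy (fun x => W (toZ x)) (wave A) = ∫ p, W p * A p * A p := by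
  rw [(part_pot hW (part_wave_h1 h)).2, sum_wave (fun F => ∫ p, W p * F p * F p) (by simp),
    pot_F3 hW (F3 _), pot_F3 hW]
  have : ∫ p, W p * thr A p * thr A p = 1 / 3 * ∫ p, W p * A p * A p := by
    rw [← integral_const_mul, ← inv_sqrt_three]
    exact integral_congr_ae (.of_forall fun p => by simp only [thr]; ring)
  rw [this]
  ring

theorem wave_adm (hW : GoodW W) (h : H1 eZ A) (ha : Anti12 A) :
    IsAdmissible (fun x => W (toZ x)) (wave A) :=
  ⟨wave_ferm h ha, (wave_kin h).trans_lt ENNReal.ofReal_lt_top, (part_pot hW (part_wave_h1 h)).1⟩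

theorem wave_energy (hW : GoodW W) (h : H1 eZ A) :
    energy (fun x => W (toZ x)) (wave A) ≤ qf eZ W A A := by
  rw [energy, wave_pot hW h, qf]
  have := ENNReal.toReal_le_of_le_ofReal (div_nonneg (dir_self_nonneg _) two_pos.le) (wave_kin h)
  linarith

/-- A minimiser among functions antisymmetric in electrons 1, 2 gives a ground state. -/
theorem wave_ground (hW : GoodW W) (h : H1 eZ A) (ha : Anti12 A) (hn : ip A A = 1)
    (hmin : ∀ B, H1 eZ B → Anti12 B → ip B B = 1 → qf eZ W A A ≤ qf eZ W B B) :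
    IsGroundState (fun x => W (toZ x)) (wave A) :=
  ⟨wave_adm hW h ha, wave_norm h ha hn, fun Φ hΦ hΦn =>
    (wave_energy hW h).trans (energy_ge hW hmin hΦ.1 hΦ.2.1 hΦn)⟩

theorem wave_density (h : H1 eZ A) (ha : Anti12 A) {S : Set X} (hS : MeasurableSet S) :
    densityOn (wave A) S = dn A S := by
  rw [part_density (wave_ferm h ha).1 hS, sum_wave (fun F => dn F S) (by simp [dn]),
    dn_F3 (F3 _), dn_F3]
  have h1 : dn (thr A) S = 3⁻¹ * dn A S := by
    rw [dn, dn, ← lintegral_const_mul' _ _ (by simp)]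
    refine lintegral_congr fun p => ?_
    rw [thr, mul_pow, inv_sqrt_three, ENNReal.ofReal_mul (by norm_num), mul_left_comm]
    congr 1
    rw [one_div, ENNReal.ofReal_inv_of_pos (by norm_num)]
    simp
  rw [h1, ← add_mul, ← add_mul, ENNReal.inv_three_add_inv_three, one_mul]

end Crest.Agent.R335
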