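/-
R335/BR/Den: densities and the real components of a ground-state ensemble (helper64).
-/
import Crest.Agent.R335.BR.Wave

set_option autoImplicit false
set_option linter.unusedSectionVars false
set_option linter.unusedVariables false
set_option linter.unusedSimpArgs false

noncomputable section

namespace Crest.Agent.R335

open MeasureTheory Set Filter Topology Metric Crest.MathPhysics.ThreeBody
open scoped ENNReal

variable {A F G : Z → ℝ} {W : Z → ℝ} {S : Set X}

theorem lint_fst (hS : MeasurableSet S) {G : Z → ℝ≥0∞} (hG : Measurable G) :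
    ∫⁻ p : Z, S.indicator (fun _ => 1) p.1 * G p = ∫⁻ x in S, ∫⁻ y : Y, G (x, y) := by
  have h : Measurable (S.indicator fun _ => (1 : ℝ≥0∞)) := measurable_const.indicator hS
  rw [Measure.volume_eq_prod, lintegral_prod (fun p : Z => S.indicator (fun _ => 1) p.1 * G p)
    ((h.comp measurable_fst).mul hG).aemeasurable,
    ← lintegral_indicator hS]
  refine lintegral_congr fun x => ?_
  by_cases hx : x ∈ S <;> simp [hx]

theorem meas_sq (hF : Measurable F) : Measurable fun p => ENNReal.ofReal (F p ^ 2) :=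
  (hF.pow_const 2).ennreal_ofReal

theorem den_parts (hF : Measurable F) :
    (Measurable fun x : X => ∫⁻ y : Y, ENNReal.ofReal (F (x, y) ^ 2)) ∧
    (Measurable fun x : X => ∫⁻ y : Y, ENNReal.ofReal (F (y.1, (x, y.2)) ^ 2)) ∧
    Measurable fun x : X => ∫⁻ y : Y, ENNReal.ofReal (F (y.1, (y.2, x)) ^ 2) :=
  ⟨(meas_sq hF).lintegral_prod_right',
    (meas_sq (hF.comp sym_12.mp.measurable)).lintegral_prod_right',
    (meas_sq (hF.comp sym_cyc.mp.measurable)).lintegral_prod_right'⟩

theorem measurable_den (hF : Measurable F) : Measurable (den F) :=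
  ((den_parts hF).1.add (den_parts hF).2.1).add (den_parts hF).2.2

theorem dn_eq (hF : Measurable F) (hS : MeasurableSet S) : dn F S = ∫⁻ x in S, den F x := by
  have h : Measurable (S.indicator fun _ => (1 : ℝ≥0∞)) := measurable_const.indicator hS
  have m1 : Measurable fun p : Z => S.indicator (fun _ => (1 : ℝ≥0∞)) p.1 *
      ENNReal.ofReal (F p ^ 2) := (h.comp measurable_fst).mul (meas_sq hF)
  have m2 : Measurable fun p : Z => S.indicator (fun _ => (1 : ℝ≥0∞)) p.2.1 *
      ENNReal.ofReal (F p ^ 2) := (h.comp (measurable_fst.comp measurable_snd)).mul (meas_sq hF)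
  unfold dn cnt den
  simp only [add_mul]
  rw [lintegral_add_left (m1.fun_add m2), lintegral_add_left m1,
    lintegral_add_left ((den_parts hF).1.fun_add (den_parts hF).2.1),
    lintegral_add_left (den_parts hF).1, lint_fst hS (meas_sq hF),
    ← sym_12.lintegral fun p : Z => S.indicator (fun _ => (1 : ℝ≥0∞)) p.2.1 *
      ENNReal.ofReal (F p ^ 2),
    ← sym_cyc.lintegral fun p : Z => S.indicator (fun _ => (1 : ℝ≥0∞)) p.2.2 *
      ENNReal.ofReal (F p ^ 2)]
  congr 1
  · congr 1
    exact lint_fst hS (meas_sq (hF.comp sym_12.mp.measurable))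
  · exact lint_fst hS (meas_sq (hF.comp sym_cyc.mp.measurable))

theorem dn_congr (h : F =ᵐ[volume] G) (S : Set X) : dn F S = dn G S := by
  refine lintegral_congr_ae ?_
  filter_upwards [h] with p hp
  rw [hp]

theorem den_rho (h : MemLp A 2 volume) (ha : Anti12 A) :
    ∀ᵐ x : X, ENNReal.ofReal (rho A x) = den A x := by
  have h1 : ∀ {B : Z → ℝ}, MemLp B 2 volume → ∀ᵐ x : X, Integrable fun y : Y => B (x, y) ^ 2 :=
    fun hB => Integrable.prod_right_ae hB.integrable_sq
  filter_upwards [h1 h, h1 (h.comp_measurePreserving sym_cyc.mp)] with x i1 i2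
  have e1 : ∫ y : Y, F1 A (x, y) ^ 2 = (∫ y : Y, A (x, y) ^ 2) + ∫ y : Y, A (x, y) ^ 2 := by
    rw [← integral_add i1 i1]
    refine integral_congr_ae (.of_forall fun y => ?_)
    simp only [F1, mul_pow, Real.sq_sqrt two_pos.le]
    ring
  have e2 : ∀ y : Y, A (y.1, (x, y.2)) ^ 2 = A (x, y) ^ 2 := fun y => by
    rw [ha x y.1 y.2, neg_sq]
  have n1 : 0 ≤ ∫ y : Y, A (x, y) ^ 2 := integral_nonneg fun _ => sq_nonneg _
  rw [rho, e1, ENNReal.ofReal_add (add_nonneg n1 n1) (integral_nonneg fun _ => sq_nonneg _),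
    ENNReal.ofReal_add n1 n1, ofReal_integral_eq_lintegral_ofReal i1 (.of_forall fun _ => sq_nonneg _),
    ofReal_integral_eq_lintegral_ofReal (f := fun y : Y => F3 A (x, y) ^ 2) i2
      (.of_forall fun _ => sq_nonneg _), den]
  simp only [e2, F3]

/-- A measurable version that is still odd under an involution. -/
theorem exists_meas_odd {T : Z → Z} (hT : Sym eZ eZ T) (hTT : ∀ p, T (T p) = p)
    (h : AEStronglyMeasurable F volume) (ho : ∀ p, F (T p) = -F p) :
    ∃ G : Z → ℝ, Measurable G ∧ F =ᵐ[volume] G ∧ ∀ p, G (T p) = -G p := by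
  have hm := h.measurable_mk
  refine ⟨fun p => (h.mk F p - h.mk F (T p)) / 2,
    (hm.sub (hm.comp hT.mp.measurable)).div_const _, ?_, fun p => ?_⟩
  · filter_upwards [h.ae_eq_mk, hT.ae h.ae_eq_mk] with p h1 h2
    rw [← h1, ← h2, ho]
    ring
  · simp only [hTT]
    ring

theorem exists_meas_anti (h : AEStronglyMeasurable F volume)
    (ha : Anti12 F ∨ Anti13 F ∨ Anti23 F) :
    ∃ G : Z → ℝ, Measurable G ∧ F =ᵐ[volume] G ∧ (Anti12 G ∨ Anti13 G ∨ Anti23 G) := by
  rcases ha with ha | ha | ha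
  · obtain ⟨G, h1, h2, h3⟩ := exists_meas_odd sym_12 (fun p => rfl) h fun p => ha _ _ _
    exact ⟨G, h1, h2, Or.inl fun x y z => h3 (x, (y, z))⟩
  · obtain ⟨G, h1, h2, h3⟩ := exists_meas_odd sym_13 (fun p => rfl) h fun p => ha _ _ _
    exact ⟨G, h1, h2, Or.inr (Or.inl fun x y z => h3 (x, (y, z)))⟩
  · obtain ⟨G, h1, h2, h3⟩ := exists_meas_odd sym_23 (fun p => rfl) h fun p => ha _ _ _
    exact ⟨G, h1, h2, Or.inr (Or.inr fun x y z => h3 (x, (y, z)))⟩

theorem ip_congr' (h : F =ᵐ[volume] G) : ip F F = ip G G := by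
  refine integral_congr_ae ?_
  filter_upwards [h] with p hp
  rw [hp]

/-- The real components of a ground state. -/
theorem ground_parts (hW : GoodW W) {Φ : Wave3} (h : IsGroundState (fun x => W (toZ x)) Φ) :
    ∃ F : (Fin 3 → Fin 2) × Bool → Z → ℝ, (∀ j, Measurable (F j)) ∧ (∀ j, H1 eZ (F j)) ∧
      (∀ j, Anti12 (F j) ∨ Anti13 (F j) ∨ Anti23 (F j)) ∧ ∑ j, ip (F j) (F j) = 1 ∧
      (∀ B : Z → ℝ, H1 eZ B → Anti12 B → ip B B = 1 →
        ∑ j, qf eZ W (F j) (F j) ≤ qf eZ W B B) ∧
      ∀ S : Set X, MeasurableSet S → densityOn Φ S = ∫⁻ x in S, ∑ j, den (F j) x := by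
  obtain ⟨⟨hf, hk, -⟩, hn, hmin⟩ := h
  choose F h1 h2 h3 using fun j => exists_meas_anti (part_memLp hf.1 j).1 (part_anti hf j)
  refine ⟨F, h1, fun j => (part_h1 hf.1 hk j).congr (h2 j), h3, ?_, fun B hB ha hBn => ?_,
    fun S hS => ?_⟩
  · rw [← part_norm_one hf.1 hn]
    exact Finset.sum_congr rfl fun j _ => (ip_congr' (h2 j)).symm
  · calc _ = ∑ j, qf eZ W (part Φ j) (part Φ j) :=
          Finset.sum_congr rfl fun j _ => (qf_congr (h2 j) (h2 j)).symm
      _ ≤ _ := part_energy hW hf.1 hk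
      _ ≤ _ := hmin _ (wave_adm hW hB ha) (wave_norm hB ha hBn)
      _ ≤ _ := wave_energy hW hB
  · rw [part_density hf.1 hS, lintegral_finsetSum _ fun j _ => measurable_den (h1 j)]
    exact Finset.sum_congr rfl fun j _ => (dn_congr (h2 j) S).trans (dn_eq (h1 j) hS)

theorem goodW_v3 {v : X → ℝ} (hv : IsSumClassPotential v) : GoodW (v3 v) := by
  refine ⟨fun x y z => ?_, fun x y z => ?_, fun B hB => ?_⟩
  · simp only [v3]
    ring
  · simp only [v3]
    ring
  · obtain ⟨h1, h2, h3⟩ := sumClass_integrable3 hv hB hB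
    refine ((h1.add h2).add h3).congr (.of_forall fun p => ?_)
    simp only [v3, Pi.add_apply]
    ring

theorem oneBody_eq (v : X → ℝ) : oneBodyPotential v = fun x => v3 v (toZ x) := by
  funext x
  simp only [oneBodyPotential, Fin.sum_univ_three, v3, toZ]

/-- The ensemble, before scaling. -/
theorem ens_of_rep (hm : Measurable A) (h : H1 eZ A) (ha : Anti12 A)
    (hr : HasEnsembleRep (wave A)) : ∃ v p F, IsSumClassPotential v ∧ Ens v p F (rho A) := by
  obtain ⟨v, hv, p, Φ, hp, hΦ, hd⟩ := hr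
  rw [oneBody_eq] at hΦ
  choose F h1 h2 h3 h4 h5 h6 using fun k => ground_parts (goodW_v3 hv) (hΦ k)
  have hpt : ∀ k, p k ≠ ⊤ := fun k => ENNReal.ne_top_of_tsum_ne_top (hp ▸ ENNReal.one_ne_top) k
  have hmk : ∀ k, Measurable fun x => p k * ∑ j, den (F k j) x := fun k =>
    (Finset.measurable_sum _ fun j _ => measurable_den (h1 k j)).const_mul _
  refine ⟨v, fun k => (p k).toReal, F, hv, fun k => ENNReal.toReal_nonneg, ?_, h1, h2, h3, h4, h5,
    ?_⟩
  · have := ENNReal.hasSum_toReal (f := p) (hp ▸ ENNReal.one_ne_top)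
    rwa [← ENNReal.tsum_toReal_eq hpt, hp, ENNReal.toReal_one] at this
  · have h7 : den A =ᵐ[volume] fun x => ∑' k, p k * ∑ j, den (F k j) x := by
      refine ae_eq_of_forall_setLIntegral_eq_of_sigmaFinite (measurable_den hm)
        (Measurable.tsum hmk) fun S hS _ => ?_
      rw [← dn_eq hm hS, ← wave_density h ha hS, hd S hS,
        lintegral_tsum fun k => (hmk k).aemeasurable]
      refine tsum_congr fun k => ?_
      rw [h6 k S hS, lintegral_const_mul' _ _ (hpt k)]
    filter_upwards [h7, den_rho h.1 ha] with x e1 e2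
    simp only [ENNReal.ofReal_toReal (hpt _)]
    rw [e2, e1]

end Crest.Agent.R335
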