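/-
R335/BR/Scale: dilations (helper64).
-/
import Crest.Agent.R335.BR.Den

set_option autoImplicit false
set_option linter.unusedSectionVars false
set_option linter.unusedVariables false
set_option linter.unusedSimpArgs false

noncomputable section

namespace Crest.Agent.R335

open MeasureTheory Set Filter Topology Metric Crest.MathPhysics.ThreeBody
open scoped ENNReal

/-- The unitary dilation. -/
def sc (c : ℝ) (B : Z → ℝ) (p : Z) : ℝ := √(c ^ 9) * B (c • p)

/-- The dilated potential. -/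
def scW (c : ℝ) (W : Z → ℝ) (p : Z) : ℝ := c ^ 2 * W (c • p)

variable {A B F : Z → ℝ} {W : Z → ℝ} {c : ℝ}

theorem sc_mul (hc : 0 < c) (a b : ℝ) : √(c ^ 9) * a * (√(c ^ 9) * b) = c ^ 9 * (a * b) := by
  have := Real.mul_self_sqrt (pow_pos hc 9).le
  linear_combination (a * b) * this

theorem int_sc (hc : 0 < c) (f : Z → ℝ) : ∫ p, c ^ 9 * f (c • p) = ∫ p, f p := by
  rw [integral_const_mul, Measure.integral_comp_smul_of_nonneg volume f c (hR := hc.le), finrank_Z,
    smul_eq_mul, ← mul_assoc, mul_inv_cancel₀ (pow_pos hc 9).ne', one_mul]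

theorem sc_h1 (hc : 0 < c) (h : H1 eZ B) : H1 eZ (sc c B) := (h.scale hc).1.const_mul _

theorem sc_ip (hc : 0 < c) (B : Z → ℝ) : ip (sc c B) (sc c B) = ip B B := by
  unfold ip
  rw [← int_sc hc fun p => B p * B p]
  simp only [sc, sc_mul hc]

theorem sc_dir (hc : 0 < c) (h : H1 eZ B) : dir eZ (sc c B) (sc c B) = c ^ 2 * dir eZ B B := by
  have h1 := h.scale hc
  unfold sc
  rw [h1.1.hl.dir_const_mul_left, dir_comm, h1.1.hl.dir_const_mul_left, h1.2, finrank_Z,
    ← mul_assoc, Real.mul_self_sqrt (pow_pos hc 9).le]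
  field_simp

theorem sc_pt (hc : 0 < c) (W B : Z → ℝ) (p : Z) : scW c W p * sc c B p * sc c B p =
    c ^ 2 * (c ^ 9 * (W (c • p) * B (c • p) * B (c • p))) := by
  rw [mul_assoc, sc, sc_mul hc, scW]
  ring

theorem sc_qf (hc : 0 < c) (W : Z → ℝ) (h : H1 eZ B) :
    qf eZ (scW c W) (sc c B) (sc c B) = c ^ 2 * qf eZ W B B := by
  unfold qf
  rw [sc_dir hc h, ← int_sc hc fun p => W p * B p * B p]
  simp only [sc_pt hc]
  rw [integral_const_mul]
  ring

theorem sc_sc (hc : 0 < c) (B : Z → ℝ) : sc c (sc c⁻¹ B) = B := by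
  funext p
  rw [sc, sc, inv_smul_smul₀ hc.ne', ← mul_assoc, ← Real.sqrt_mul (pow_pos hc 9).le, ← mul_pow,
    mul_inv_cancel₀ hc.ne', one_pow, Real.sqrt_one, one_mul]

theorem sc_anti12 (c : ℝ) (h : Anti12 B) : Anti12 (sc c B) := fun x y z => by
  simp only [sc, Prod.smul_mk, h (c • x)]
  ring

theorem sc_anti13 (c : ℝ) (h : Anti13 B) : Anti13 (sc c B) := fun x y z => by
  simp only [sc, Prod.smul_mk, h (c • x)]
  ring

theorem sc_anti23 (c : ℝ) (h : Anti23 B) : Anti23 (sc c B) := fun x y z => by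
  simp only [sc, Prod.smul_mk, h (c • x) (c • y)]
  ring

theorem sc_meas (c : ℝ) (h : Measurable B) : Measurable (sc c B) :=
  (h.comp (measurable_const_smul c)).const_mul _

theorem GoodW.sc (hW : GoodW W) (hc : 0 < c) : GoodW (scW c W) := by
  refine ⟨fun x y z => ?_, fun x y z => ?_, fun B hB => ?_⟩
  · simp only [scW, Prod.smul_mk, hW.s12 (c • x)]
  · simp only [scW, Prod.smul_mk, hW.s23 (c • x) (c • y)]
  · rw [← sc_sc hc B]
    simp only [sc_pt hc]
    exact (((hW.int _ (sc_h1 (inv_pos.2 hc) hB)).comp_smul hc.ne').const_mul _).const_mul _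

theorem sc_min (hc : 0 < c) {a : ℝ}
    (h : ∀ B, H1 eZ B → Anti12 B → ip B B = 1 → a ≤ qf eZ W B B) :
    ∀ B, H1 eZ B → Anti12 B → ip B B = 1 → c ^ 2 * a ≤ qf eZ (scW c W) B B := fun B h1 h2 h3 => by
  have h4 := sc_h1 (inv_pos.2 hc) h1
  rw [← sc_sc hc B, sc_qf hc W h4]
  exact mul_le_mul_of_nonneg_left
    (h _ h4 (sc_anti12 _ h2) ((sc_ip (inv_pos.2 hc) B).trans h3)) (sq_nonneg c)

theorem sc_sq (hc : 0 < c) (B : Z → ℝ) (p : Z) : sc c B p ^ 2 = c ^ 9 * B (c • p) ^ 2 := by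
  rw [sc, mul_pow, Real.sq_sqrt (pow_pos hc 9).le]

theorem int_scY (hc : 0 < c) (f : Y → ℝ) : ∫ y, c ^ 9 * f (c • y) = c ^ 3 * ∫ y, f y := by
  rw [integral_const_mul, Measure.integral_comp_smul_of_nonneg volume f c (hR := hc.le), finrank_Y,
    smul_eq_mul]
  field_simp

theorem lint_scY (hc : 0 < c) (f : Y → ℝ) : ∫⁻ y, ENNReal.ofReal (c ^ 9 * f (c • y)) =
    ENNReal.ofReal (c ^ 3) * ∫⁻ y, ENNReal.ofReal (f y) := by
  have h1 := (Homeomorph.smulOfNeZero c hc.ne' : Y ≃ₜ Y).measurableEmbedding.lintegral_map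
    (μ := volume) fun y => ENNReal.ofReal (f y)
  have h2 : Measure.map (Homeomorph.smulOfNeZero c hc.ne' : Y ≃ₜ Y) volume =
      ENNReal.ofReal |(c ^ Module.finrank ℝ Y)⁻¹| • volume :=
    Measure.map_addHaar_smul (volume : Measure Y) hc.ne'
  rw [h2, lintegral_smul_measure, finrank_Y] at h1
  simp only [ENNReal.ofReal_mul (pow_pos hc 9).le]
  rw [lintegral_const_mul' _ _ ENNReal.ofReal_ne_top]
  erw [← h1]
  rw [smul_eq_mul, ← mul_assoc, ← ENNReal.ofReal_mul (pow_pos hc 9).le,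
    abs_of_pos (by positivity)]
  congr 2
  field_simp

theorem rho_sc (hc : 0 < c) (A : Z → ℝ) (x : X) : rho (sc c A) x = c ^ 3 * rho A (c • x) := by
  rw [rho, rho, mul_add, ← int_scY hc, ← int_scY hc]
  congr 1
  · refine integral_congr_ae (.of_forall fun y => ?_)
    simp only [F1, mul_pow, sc_sq hc, Prod.smul_mk]
    ring
  · refine integral_congr_ae (.of_forall fun y => ?_)
    simp only [F3, sc_sq hc, Prod.smul_mk, Prod.smul_fst, Prod.smul_snd]

theorem den_sc (hc : 0 < c) (F : Z → ℝ) (x : X) :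
    den (sc c F) x = ENNReal.ofReal (c ^ 3) * den F (c • x) := by
  rw [den, den, mul_add, mul_add, ← lint_scY hc, ← lint_scY hc, ← lint_scY hc]
  simp only [sc_sq hc, Prod.smul_mk, Prod.smul_fst, Prod.smul_snd]

theorem sumClass_sc (hc : 0 < c) {v : X → ℝ} (hv : IsSumClassPotential v) :
    IsSumClassPotential fun x => c ^ 2 * v (c • x) := by
  obtain ⟨v1, v2, rfl, h1, h2⟩ := hv
  have hm := Measure.map_addHaar_smul (volume : Measure X) hc.ne'
  have h : ∀ {u : X → ℝ} {q : ℝ≥0∞}, MemLp u q volume → MemLp (fun x => u (c • x)) q volume :=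
    fun {u q} hu => MemLp.comp_of_map (g := u) (hm ▸ hu.smul_measure ENNReal.ofReal_ne_top)
      (measurable_const_smul c).aemeasurable
  refine ⟨fun x => c ^ 2 * v1 (c • x), fun x => c ^ 2 * v2 (c • x), ?_, (h h1).const_mul _,
    (h h2).const_mul _⟩
  funext x
  simp only [Pi.add_apply, mul_add]

theorem v3_sc (c : ℝ) (v : X → ℝ) : v3 (fun x => c ^ 2 * v (c • x)) = scW c (v3 v) := by
  funext p
  simp only [v3, scW, Prod.smul_fst, Prod.smul_snd]
  ring

theorem Ens.sc (hc : 0 < c) {v ρ : X → ℝ} {p : ℕ → ℝ} {F : ℕ → (Fin 3 → Fin 2) × Bool → Z → ℝ}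
    (h : Ens v p F ρ) : Ens (fun x => c ^ 2 * v (c • x)) p (fun k j => sc c (F k j))
      fun x => c ^ 3 * ρ (c • x) := by
  refine ⟨h.nn, h.sum, fun k j => sc_meas c (h.meas k j), fun k j => sc_h1 hc (h.h1 k j),
    fun k j => (h.anti k j).imp (sc_anti12 c) fun h => h.imp (sc_anti13 c) (sc_anti23 c),
    fun k => ?_, fun k B h1 h2 h3 => ?_, ?_⟩
  · simp only [sc_ip hc, h.nrm k]
  · simp only [v3_sc, sc_qf hc _ (h.h1 k _), ← Finset.mul_sum]
    exact sc_min hc (h.min k) B h1 h2 h3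
  · filter_upwards [(Measure.quasiMeasurePreserving_smul (volume : Measure X) hc.ne').ae h.dens]
      with x hx
    rw [ENNReal.ofReal_mul (pow_pos hc 3).le, hx, ← ENNReal.tsum_mul_left]
    refine tsum_congr fun k => ?_
    simp only [den_sc hc, ← Finset.mul_sum]
    ring

theorem goodW_U3 (D l : ℝ) : GoodW (U3 D l) :=
  ⟨U3_swap12 D l, U3_swap23 D l, fun B hB => (pot_U3 D l).integrable hB hB.1⟩

theorem coulomb_eq (D : ℝ) {n : ℕ} (hn : 1 ≤ n) :
    coulombPotential n (EuclideanSpace.single 2 (D / n)) (EuclideanSpace.single 2 (-(D / n))) =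
      fun x => scW n (U3 D (1 / n)) (toZ x) := by
  have hc : (0 : ℝ) < n := by exact_mod_cast hn
  have e1 : ∀ y : X, ‖(n : ℝ) • y - nuc D‖ = n * ‖y - EuclideanSpace.single 2 (D / n)‖ := fun y => by
    rw [← abs_of_pos hc, ← Real.norm_eq_abs, ← norm_smul, Real.norm_eq_abs, abs_of_pos hc]
    congr 1
    ext i
    by_cases hi : i = 2 <;> simp [nuc, hi, Pi.single_apply]
    field_simp
  have e2 : ∀ y : X, ‖(n : ℝ) • y + nuc D‖ = n * ‖y - EuclideanSpace.single 2 (-(D / n))‖ :=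
    fun y => by
    rw [← abs_of_pos hc, ← Real.norm_eq_abs, ← norm_smul, Real.norm_eq_abs, abs_of_pos hc]
    congr 1
    ext i
    by_cases hi : i = 2 <;> simp [nuc, hi, Pi.single_apply]
    field_simp
  have e3 : ∀ y z : X, ‖(n : ℝ) • y - (n : ℝ) • z‖ = n * ‖y - z‖ := fun y z => by
    rw [← smul_sub, norm_smul, Real.norm_eq_abs, abs_of_pos hc]
  funext x
  simp only [coulombPotential, scW, U3, U2, V, Wx, tp, tm, toZ, Prod.smul_mk, e1, e2, e3,
    Fin.sum_univ_three]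
  simp only [Fin.lt_def]
  norm_num
  field_simp
  ring

end Crest.Agent.R335
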