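/-
R335/BR/Main: block BR (see R335/Notes)
Skeleton by helper48 (row 335); keep the statements unchanged, add any helper lemmas you like.
-/
import Crest.Agent.R335.Blocks
import Crest.Agent.R335.BR.Scale

set_option autoImplicit false
set_option linter.unusedSectionVars false
set_option linter.unusedVariables false
set_option linter.unusedSimpArgs false

noncomputable section

namespace Crest.Agent.R335

open MeasureTheory Set Filter Topology Metric
open scoped ENNReal


theorem stBridge : StBridge := by
  intro D n hn A hm h ha h1 hmin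
  have hc : (0 : ℝ) < n := by exact_mod_cast hn
  refine ⟨wave (sc n A), ?_, fun hr => ?_⟩
  · rw [coulomb_eq D hn]
    refine wave_ground ((goodW_U3 D _).sc hc) (sc_h1 hc h) (sc_anti12 _ ha)
      ((sc_ip hc A).trans h1) ?_
    rw [sc_qf hc _ h]
    exact sc_min hc hmin
  · obtain ⟨v, p, F, hv, hE⟩ := ens_of_rep (sc_meas _ hm) (sc_h1 hc h) (sc_anti12 _ ha) hr
    refine ⟨_, p, fun k j => sc (n : ℝ)⁻¹ (F k j), sumClass_sc (inv_pos.2 hc) hv, ?_⟩
    convert hE.sc (inv_pos.2 hc) using 1
    funext x
    rw [rho_sc hc, smul_inv_smul₀ hc.ne', ← mul_assoc, ← mul_pow, inv_mul_cancel₀ hc.ne', one_pow,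
      one_mul]

end Crest.Agent.R335
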